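import Vale.Agent.P286EHM.Tw

/-!
# The morphisms in normal form
-/

set_option linter.all false

namespace Vale.Agent.P286EHM

open Matrix Vale.Agent.P286 Vale.Agent.P286E Vale.Agent.P286EN Vale.Agent.P286EB
open Vale.Agent.P286ER (On)
open Vale.Agent.P286ET (Ix)

noncomputable section

attribute [-instance] HahnSeries.powerSeriesAlgebra

variable {A B : Type} [CommRing A] [Algebra ℂ A] [CommRing B] [Algebra ℂ B] {N : ℕ} {E : Ell}
  {G : Grp}

theorem rk_sand {R : Type} [CommRing R] {q : Matrix (Fin N) (Fin N) R} (h : Rk1 q)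
    (P : Matrix (Fin N) (Fin N) R) : q * P * q = trace (q * P) • q := by
  ext i j
  simp only [Matrix.mul_apply, Matrix.smul_apply, trace, diag_apply, smul_eq_mul, Finset.sum_mul]
  refine Finset.sum_congr rfl fun l _ => Finset.sum_congr rfl fun k _ => ?_
  linear_combination P k l * h i k l j

/-- Two self-adjoint projectors of rank at most one with the same trace. -/
theorem proj_eq {R : Type} [CommRing R] {F g gi p q : Matrix (Fin N) (Fin N) R} (hF : IsUnit F)
    (hg : gᵀ * F = F * gi) (h1 : gi * g = 1) (hp : pᵀ * F = F * p) (hq : qᵀ * F = F * q)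
    (hq2 : q * q = q) (rk : Rk1 q) (tr : trace p = trace q) (h : q * (g * p) = g * p) :
    g * p = q * g := by
  have h2 : p * gi * q = p * gi := by
    have h3 := congrArg (fun z => zᵀ * F) h
    simp only [transpose_mul, Matrix.mul_assoc, hq] at h3
    rw [← Matrix.mul_assoc gᵀ, hg] at h3
    simp only [← Matrix.mul_assoc, hp] at h3
    refine hF.mul_left_cancel ?_
    simpa only [Matrix.mul_assoc] using h3
  have h4 : q * (g * p * gi) = g * p * gi := by rw [← Matrix.mul_assoc, h]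
  have h5 := rk_sand rk (g * p * gi)
  have h6 := rk_sand rk 1
  rw [Matrix.mul_one, hq2] at h6
  rw [h4, trace_mul_comm, ← Matrix.mul_assoc, h1, Matrix.one_mul, tr, ← h6, Matrix.mul_assoc g,
    Matrix.mul_assoc g, h2] at h5
  rw [← h5, Matrix.mul_assoc, Matrix.mul_assoc, h1, Matrix.mul_one]

theorem cm_det (h : Matrix (Fin N) (Fin N) A) : (cm h).det = HahnSeries.C h.det :=
  (RingHom.map_det (HahnSeries.C : A →+* Ls A) h).symm

theorem cm_trace (h : Matrix (Fin N) (Fin N) A) : trace (cm h) = HahnSeries.C (trace h) :=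
  (AddMonoidHom.map_trace (HahnSeries.C : A →+* Ls A) h).symm

theorem inG_cm {h : Matrix (Fin G.N) (Fin G.N) A} : InG G (cm h) ↔ G.Pt h := by
  constructor
  · intro k
    refine ⟨HahnSeries.C_injective (Γ := ℤ) ?_, cm_inj ?_⟩
    · rw [← cm_det, k.det, map_one]
    · rw [cm_mul, cm_mul]
      exact k.form
  · intro k
    refine ⟨by rw [cm_det, k.det, map_one], ?_⟩
    rw [cst_eq, cm_transpose, ← cm_mul, ← cm_mul, k.form]

theorem ht_smul (c : A) (ξ : Fin 3 → A) : G.ht (c • ξ) = c • G.ht ξ := by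
  simp only [Grp.ht, Pi.smul_apply, smul_eq_mul, mul_smul, Finset.smul_sum]

theorem cm_ht (ξ : Fin 3 → A) : cm (G.ht ξ) = G.hat (HahnSeries.C ∘ ξ) := by
  rw [Grp.ht, Grp.hat, cm_eq, map_sum]
  exact Finset.sum_congr rfl fun i _ => cm_smul _ _

theorem tr_ht (hG : G.Ok) (ξ : Fin 3 → A) : trace (G.ht ξ * G.ht ξ) = 2 * (ξ ⬝ᵥ ξ) := by
  have h := hG.tr_hat_hat (HahnSeries.C ∘ ξ : Fin 3 → Ls A) (HahnSeries.C ∘ ξ)
  rw [← cm_ht, ← cm_mul, cm_trace, ← RingHom.map_dotProduct] at h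
  have h1 : algebraMap ℂ A 2⁻¹ * trace (G.ht ξ * G.ht ξ) = ξ ⬝ᵥ ξ :=
    HahnSeries.C_injective (Γ := ℤ) ((map_mul _ _ _).trans h)
  linear_combination 2 * h1 - trace (G.ht ξ * G.ht ξ) * iota_half (algebraMap ℂ A)

variable {e : Rt E} {i j : Ix} {x : A} {ξ : Fin 3 → A} {π : Matrix (Fin G.N) (Fin G.N) A}

theorem Xm_ne (hi : i ≠ .b) : Xm e G i x ξ π = ea e A • π + x • (1 - π) := by
  cases i
  · rfl
  · exact absurd rfl hi
  · rfl

theorem tr_Xm (hG : G.Ok) (h : Pt e G i x ξ π) :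
    trace (Xm e G i x ξ π) = ((G.N : A) - 2) * ea e A + 2 * x := by
  by_cases hi : i = .b
  · subst hi
    have h1 := Ring.inverse_mul_cancel _ (h.ub rfl).1
    rw [Xm, trace_add, trace_smul, trace_smul, tr_ht hG, h.sq, fv_eq e, trace_one, Fintype.card_fin,
      smul_eq_mul, smul_eq_mul]
    linear_combination 2 * (x - ea e A) * h1
  · rw [Xm_ne hi, trace_add, trace_smul, trace_smul, trace_sub, (h.pr hi).tr, trace_one,
      Fintype.card_fin, smul_eq_mul, smul_eq_mul]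
    ring

theorem inv_map (f : A →ₐ[ℂ] B) {u : A} (hu : IsUnit u) :
    f (Ring.inverse u) = Ring.inverse (f u) := by
  have h1 := congrArg f (Ring.inverse_mul_cancel _ hu)
  have h2 := Ring.mul_inverse_cancel _ (hu.map f)
  rw [map_mul, map_one] at h1
  linear_combination Ring.inverse (f u) * h1 - f (Ring.inverse u) * h2

variable {x' : B} {ξ' : Fin 3 → B} {π' H : Matrix (Fin G.N) (Fin G.N) B}

theorem Xm_inter (f : A →ₐ[ℂ] B) (hij : i = .b ↔ j = .b) (h : Pt e G i x ξ π)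
    (hY : H * G.ht (f ∘ ξ) = G.ht ξ' * H) (hπ : H * π.map f = π' * H) :
    H * (Xm e G i x ξ π).map f = Xm e G j (f x) ξ' π' * H := by
  have ad : ∀ u w : Matrix (Fin G.N) (Fin G.N) A, (u + w).map f = u.map f + w.map f :=
    fun u w => Matrix.map_add _ (map_add f) u w
  have on : (1 : Matrix (Fin G.N) (Fin G.N) A).map f = 1 :=
    Matrix.map_one _ (map_zero f) (map_one f)
  by_cases hi : i = .b
  · obtain rfl := hij.1 hi
    subst hi
    rw [Xm, Xm, ad, P286E.map_smul', P286E.map_smul', map_mul', on, Grp.ht_map, ea_map,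
      inv_map f (h.ub rfl).1, gv_map, mul_add, add_mul, mul_smul_comm, mul_smul_comm,
      smul_mul_assoc, smul_mul_assoc, mul_one, one_mul, ← mul_assoc, hY, mul_assoc, hY, mul_assoc]
  · rw [Xm_ne hi, Xm_ne (fun k => hi (hij.2 k)), ad, P286E.map_smul', P286E.map_smul',
      Matrix.map_sub _ (map_sub f), on, ea_map, mul_add, add_mul, mul_smul_comm, mul_smul_comm,
      smul_mul_assoc, smul_mul_assoc, mul_sub, sub_mul, hπ, mul_one, one_mul]

theorem cm_mulVec (P : Matrix (Fin N) (Fin N) A) (c : Fin N → A) :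
    cm P *ᵥ (HahnSeries.C ∘ c) = HahnSeries.C ∘ (P *ᵥ c) :=
  funext fun k => (RingHom.map_mulVec (HahnSeries.C : A →+* Ls A) P c k).symm

/-- A morphism respects the projectors. -/
theorem pi_eqv (hF : FAMM) (hG : G = SL2 ∨ G = SO3) (f : A →ₐ[ℂ] B) (hij : i = .b ↔ j = .b)
    (h : Pt e G i x ξ π) (h' : Pt e G j x' ξ' π') {g : Matrix (Fin G.N) (Fin G.N) (Ls B)}
    (g1 : InG G g) (g2 : IntM g)
    (g3 : ∀ m ∈ FM e G i x ξ π, g *ᵥ (lm (f : A →+* B) ∘ m) ∈ FM e G j x' ξ' π') :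
    g * cm (π.map f) = cm π' * g := by
  by_cases hi : i = .b
  · rw [(h.ub hi).2, (h'.ub (hij.1 hi)).2, Matrix.map_one _ (map_zero f) (map_one f), cm_one,
      mul_one, one_mul]
  have hj : j ≠ .b := fun k => hi (hij.2 k)
  have a1 := (hF E e G hG A i x ξ π h).2.2.2.2.2.2.2 hi
  obtain ⟨-, b0, -, -, -, -, -, b1⟩ := hF E e G hG B j x' ξ' π' h'
  have p := h.pr hi
  have p' := h'.pr hj
  refine proj_eq (F := cst B G.F) ?_ g1.form'' g1.adj_mul ?_ ?_ ?_ ?_ ?_ ?_
  · rw [isUnit_iff_isUnit_det, det_cst, (Grp.ok_of hG).det, map_one]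
    exact isUnit_one
  · have k := congrArg (fun z => cm (z.map f)) p.adj
    simp only [map_mul', map_cm, cm_mul] at k
    exact k
  · have k := congrArg cm p'.adj
    rw [cm_mul, cm_mul] at k
    exact k
  · rw [← cm_mul, b0]
  · intro a b c d
    rw [cm_apply, cm_apply, cm_apply, cm_apply, ← map_mul, ← map_mul, p'.rk]
  · rw [cm_trace, cm_trace, p'.tr, ← AddMonoidHom.map_trace, p.tr, map_sub, map_natCast,
      map_ofNat]
  · refine Grp.mat_ext fun v => ?_
    suffices k : ∀ l, cm π' *ᵥ g *ᵥ (fun a => cm (π.map f) a l) =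
        g *ᵥ (fun a => cm (π.map f) a l) by
      congr 1
      ext1 a l
      have k1 := congrFun (k l) a
      rw [mulVec_mulVec] at k1
      rw [← mul_assoc]
      exact k1
    intro l
    obtain ⟨c1, c2⟩ := (a1 _).2 ⟨Pi.single l 1, rfl⟩
    have c3 : lm (f : A →+* B) ∘ (HahnSeries.C ∘ (π *ᵥ Pi.single l 1)) =
        fun a => cm (π.map f) a l := by
      rw [mulVec_single_one]
      exact funext fun a => lm_C _ _
    obtain ⟨c, hc⟩ := (b1 hj _).1 ⟨g3 _ c1, g2.mulVec fun a => (c2 a).lm _⟩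
    rw [c3] at hc
    rw [hc, cm_mulVec, mulVec_mulVec, b0]

/-- The morphisms between two points of charts of the same kind. -/
theorem core (hF : FAMM) (hG : G = SL2 ∨ G = SO3) (f : A →ₐ[ℂ] B) (hij : i = .b ↔ j = .b)
    (h : Pt e G i x ξ π) (h' : Pt e G j x' ξ' π') (g : Matrix (Fin G.N) (Fin G.N) (Ls B)) :
    (InG G g ∧ IntM g ∧
      ∀ m ∈ FM e G i x ξ π, g *ᵥ (lm (f : A →+* B) ∘ m) ∈ FM e G j x' ξ' π') ↔
    ∃ H, G.Pt H ∧ g = cm H ∧ f x = x' ∧ H * G.ht (f ∘ ξ) = G.ht ξ' * H ∧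
      (i ≠ .b → H * π.map f = π' * H) := by
  obtain ⟨a0, a1, a2, a3, -⟩ := hF E e G hG A i x ξ π h
  obtain ⟨b0, b1, -⟩ := hF E e G hG B j x' ξ' π' h'
  constructor
  · rintro ⟨g1, g2, g3⟩
    have k := pi_eqv hF hG f hij h h' g1 g2 g3
    have k1 := tw_unmap (f := f) (π := cm π) (by rw [cm_map]; exact k) (by rw [← cm_mul, a1])
      (by rw [← cm_mul, b1]) (stab_U a0) (stab_U b0) (fun m hm => cm_mem_U a2 a3 hm) g3
    obtain ⟨r1, r2, r3⟩ := rig_bc (E := E) f (OrdM.lead g2) lead_one lead_one a0.comm b0.comm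
      (by rw [map_act_one, map_act_one]; exact k1)
    rw [Matrix.map_one _ (map_zero _) (map_one _), mul_one, one_mul] at r1
    generalize (of fun a b => (g a b).coeff 0) = H at r1 r2 r3
    subst r1
    have hH := inG_cm.1 g1
    rw [Grp.ht_map] at r3
    refine ⟨H, hH, rfl, ?_, r3, fun _ => cm_inj (by rw [cm_mul, cm_mul, k])⟩
    have t1 := congrArg (fun z => trace (z * H.adjugate)) r2
    beta_reduce at t1
    rw [trace_mul_comm, ← mul_assoc, adjugate_mul, mul_assoc, mul_adjugate, hH.det, one_smul,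
      one_mul, mul_one, ← AddMonoidHom.map_trace, tr_Xm (Grp.ok_of hG) h,
      tr_Xm (Grp.ok_of hG) h', map_add, map_mul, map_mul, map_sub, map_natCast, map_ofNat,
      ea_map] at t1
    exact unit_two.mul_left_cancel (add_left_cancel t1)
  · rintro ⟨H, hH, rfl, rfl, r3, r4⟩
    have hπ : H * π.map f = π' * H := by
      by_cases hi : i = .b
      · rw [(h.ub hi).2, (h'.ub (hij.1 hi)).2, Matrix.map_one _ (map_zero f) (map_one f), mul_one,
          one_mul]
      · exact r4 hi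
    refine ⟨inG_cm.2 hH, (lead_cm H).ord, tw_map ?_ fun m hm => ?_⟩
    · rw [cm_map, ← cm_mul, ← cm_mul]
      exact congrArg cm hπ
    · exact cm_mem_U (Xm_inter f hij h r3 hπ) (by rw [Grp.ht_map]; exact r3) (lm_mem_U f hm)

/-- **The morphisms in normal form.** -/
theorem hom (hF : FAMM) (hT : TRN) : HOM := by
  intro E e G hG A B _ _ _ _ f i j hij x ξ π x' ξ' π' h h' g
  by_cases hb : i = .b ↔ j = .b
  · have k : trn e G i j x' ξ' π' = 1 ∧ kx e i j x' = x' ∧ kc e i j x' = 1 := by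
      cases i <;> cases j <;> first | exact ⟨rfl, rfl, rfl⟩ | exact absurd (hb.1 rfl) (by decide)
    rw [k.1, k.2.1, k.2.2, core hF hG f hb h h']
    simp only [one_mul, one_smul]
  have k : i = .b ∧ j = .n := by
    rcases hij with rfl | rfl
    · exact absurd Iff.rfl hb
    · cases i
      · exact absurd (by decide) hb
      · exact ⟨rfl, rfl⟩
      · exact absurd Iff.rfl hb
  obtain ⟨rfl, rfl⟩ := k
  obtain ⟨t0, t1, t2, t3⟩ := hT E e G hG B x' ξ' π' h'
  have c := fun g => core hF hG f Iff.rfl h t0 g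
  rw [← t3]
  generalize trn e G .b .n x' ξ' π' = τ at t1 t2 ⊢
  constructor
  · rintro ⟨g1, g2, g3⟩
    obtain ⟨H, hH, r1, r2, r3, -⟩ := (c (τ.adjugate * g)).1 ⟨t1.adj.mul g1, t2.adjugate.mul g2,
      fun m hm => by
        obtain ⟨u, hu, k⟩ := g3 m hm
        rw [← mulVec_mulVec, ← k, act_apply, mulVec_mulVec, t1.adj_mul, one_mulVec]
        exact hu⟩
    refine ⟨H, hH, by rw [← r1, ← mul_assoc, t1.mul_adj, one_mul], r2, ?_, fun k => absurd rfl k⟩
    rw [r3, ht_smul, smul_mul_assoc]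
  · rintro ⟨H, hH, rfl, r2, r3, -⟩
    obtain ⟨g1, g2, g3⟩ := (c (cm H)).2 ⟨H, hH, rfl, r2, by rw [r3, ht_smul, smul_mul_assoc],
      fun k => absurd rfl k⟩
    exact ⟨t1.mul g1, t2.mul g2, fun m hm => ⟨_, g3 m hm, by rw [act_apply, mulVec_mulVec]⟩⟩

end

end Vale.Agent.P286EHM
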