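import Vale.Agent.P286EB.IF
import Vale.Agent.P286EN.Adj

/-!
# The twist and morphisms
-/

set_option linter.all false

namespace Vale.Agent.P286EHM

open Matrix Vale.Agent.P286 Vale.Agent.P286E Vale.Agent.P286EN Vale.Agent.P286EB

noncomputable section

attribute [-instance] HahnSeries.powerSeriesAlgebra

variable {A B : Type} [CommRing A] [Algebra ℂ A] [CommRing B] [Algebra ℂ B] {N : ℕ} {E : Ell}

theorem ent11 {R : Type} [CommRing R] (u w : Matrix (Fin 1) (Fin 1) R) :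
    (u * w) 0 0 = u 0 0 * w 0 0 := by rw [Matrix.mul_apply, Fin.sum_univ_one]

theorem sr_sr (c : A) : sr c * sr c = xs A - HahnSeries.C c := by
  have h := congrFun (congrFun (rho_mul_rho (N := 1) (of fun _ _ => c)) 0) 0
  rw [ent11, Matrix.sub_apply, Matrix.smul_apply, one_apply_eq, smul_eq_mul, mul_one] at h
  exact h

theorem sr_sI (c : A) : sr c * sI c = 1 := by
  have h := congrFun (congrFun (rho_mul_rhoI (N := 1) (of fun _ _ => c)) 0) 0
  rw [ent11, one_apply_eq] at h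
  exact h

theorem lm_sr (f : A →ₐ[ℂ] B) (c : A) : lm (f : A →+* B) (sr c) = sr (f c) :=
  congrFun (congrFun (rho_map f (N := 1) (of fun _ _ => c)) 0) 0

theorem lm_sI (f : A →ₐ[ℂ] B) (c : A) : lm (f : A →+* B) (sI c) = sI (f c) :=
  congrFun (congrFun (rhoI_map f (N := 1) (of fun _ _ => c)) 0) 0

variable (e : Rt E)

theorem ea_map (f : A →ₐ[ℂ] B) : f (ea e A) = ea e B := f.commutes _

theorem ea_rt : ea e A ^ 3 + algebraMap ℂ A E.a * ea e A + algebraMap ℂ A E.b = 0 := by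
  have h := congrArg (algebraMap ℂ A) e.rt
  rwa [map_add, map_add, map_mul, map_pow, map_zero] at h

theorem fv_eq (x : A) : fv E x = (x - ea e A) * gv e x := by
  rw [fv, gv]
  linear_combination ea_rt (A := A) e

theorem gv_map (f : A →ₐ[ℂ] B) (x : A) : f (gv e x) = gv e (f x) := by
  rw [gv, gv, map_add, map_add, map_add, map_mul, map_pow, map_pow, ea_map, f.commutes]

/-- The first generator of `J`. -/
def j1 (A : Type) [CommRing A] [Algebra ℂ A] : Ls A := sr (ea e A)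

/-- The second generator of `J`. -/
def j2 (A : Type) [CommRing A] [Algebra ℂ A] : Ls A := ys E A * sI (ea e A)

theorem lm_j1 (f : A →ₐ[ℂ] B) : lm (f : A →+* B) (j1 e A) = j1 e B := by
  rw [j1, lm_sr, ea_map, j1]

theorem lm_j2 (f : A →ₐ[ℂ] B) : lm (f : A →+* B) (j2 e A) = j2 e B := by
  rw [j2, map_mul, lm_sI, ea_map, lm_ys, j2]

theorem j11 : j1 e A * j1 e A = xs A - HahnSeries.C (ea e A) := sr_sr _

theorem j12 : j1 e A * j2 e A = ys E A := by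
  rw [j1, j2, mul_left_comm, sr_sI, mul_one]

theorem j22 : j2 e A * j2 e A = xs A ^ 2 + HahnSeries.C (ea e A) * xs A +
    (HahnSeries.C (ea e A) ^ 2 + cc A E.a) := by
  have h1 := ys_sq (A := A) E
  have h2 := sr_sr (ea e A)
  have h3 := sr_sI (ea e A)
  have h4 := congrArg (HahnSeries.C : A →+* Ls A) (ea_rt (A := A) e)
  rw [map_add, map_add, map_mul, map_pow, map_zero] at h4
  change _ + cc A E.a * _ + cc A E.b = 0 at h4
  rw [j2]
  generalize (HahnSeries.C : A →+* Ls A) (ea e A) = z at *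
  generalize sI (ea e A) = t at *
  generalize sr (ea e A) = s at *
  linear_combination t ^ 2 * h1 + t ^ 2 * h4 -
    t ^ 2 * (xs A ^ 2 + z * xs A + (z ^ 2 + cc A E.a)) * h2 +
    (s * t + 1) * (xs A ^ 2 + z * xs A + (z ^ 2 + cc A E.a)) * h3

theorem j11_mem : j1 e A * j1 e A ∈ Rg E A := by
  rw [j11]
  exact Px_le_Rg E ((Px A).sub_mem xs_mem_Px (C_mem_Px _))

theorem j12_mem : j1 e A * j2 e A ∈ Rg E A := by
  rw [j12]
  exact ys_mem_Rg E

theorem j22_mem : j2 e A * j2 e A ∈ Rg E A := by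
  rw [j22]
  exact Px_le_Rg E ((Px A).add_mem ((Px A).add_mem ((Px A).pow_mem xs_mem_Px 2)
    ((Px A).mul_mem (C_mem_Px _) xs_mem_Px))
    ((Px A).add_mem ((Px A).pow_mem (C_mem_Px _) 2) (cc_mem _)))

theorem j_bez : ∃ p ∈ Rg E A, ∃ q ∈ Rg E A, p * (j1 e A * j1 e A) + q * (j2 e A * j2 e A) = 1 := by
  have h : cc A e.d⁻¹ * (3 * HahnSeries.C (ea e A) ^ 2 + cc A E.a) = 1 := by
    have h1 := congrArg (io A) (inv_mul_cancel₀ e.d_ne)
    rw [map_mul, map_one, Rt.d, map_add, map_mul, map_pow, map_ofNat] at h1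
    exact h1
  refine ⟨-(cc A e.d⁻¹ * (xs A + HahnSeries.C (ea e A) + HahnSeries.C (ea e A))),
    Px_le_Rg E ((Px A).neg_mem ((Px A).mul_mem (cc_mem _) ((Px A).add_mem
      ((Px A).add_mem xs_mem_Px (C_mem_Px _)) (C_mem_Px _)))), cc A e.d⁻¹,
    Px_le_Rg E (cc_mem _), ?_⟩
  rw [j11, j22]
  linear_combination h

theorem mem_tw {π : Matrix (Fin N) (Fin N) (Ls A)} {M : Submodule A (Fin N → Ls A)}
    {m : Fin N → Ls A} : m ∈ tw e π M ↔
      (1 - π) *ᵥ m ∈ M ∧ j1 e A • π *ᵥ m ∈ M ∧ j2 e A • π *ᵥ m ∈ M := by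
  rw [← smul_mulVec, ← smul_mulVec, ← and_assoc]
  rfl

theorem lm_vsmul (f : A →+* B) (w : Ls A) (m : Fin N → Ls A) :
    lm f ∘ (w • m) = lm f w • (lm f ∘ m) := funext fun i => map_mul (lm f) w (m i)

variable {e} {f : A →ₐ[ℂ] B} {π : Matrix (Fin N) (Fin N) (Ls A)}
  {g π' : Matrix (Fin N) (Fin N) (Ls B)} {M : Submodule A (Fin N → Ls A)}
  {M' : Submodule B (Fin N → Ls B)}

theorem eqv_pi (hg : g * π.map (lm (f : A →+* B)) = π' * g) (m : Fin N → Ls A) :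
    g *ᵥ (lm (f : A →+* B) ∘ (π *ᵥ m)) = π' *ᵥ g *ᵥ (lm (f : A →+* B) ∘ m) := by
  rw [lm_mulVec, mulVec_mulVec, hg, mulVec_mulVec]

theorem eqv_co (hg : g * π.map (lm (f : A →+* B)) = π' * g) (m : Fin N → Ls A) :
    g *ᵥ (lm (f : A →+* B) ∘ ((1 - π) *ᵥ m)) = (1 - π') *ᵥ g *ᵥ (lm (f : A →+* B) ∘ m) := by
  refine eqv_pi ?_ m
  rw [Matrix.map_sub _ (map_sub _), Matrix.map_one _ (map_zero _) (map_one _), mul_sub, hg, sub_mul,
    mul_one, one_mul]

/-- An equivariant morphism of lattices is a morphism of the twists. -/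
theorem tw_map (hg : g * π.map (lm (f : A →+* B)) = π' * g)
    (h : ∀ m ∈ M, g *ᵥ (lm (f : A →+* B) ∘ m) ∈ M') :
    ∀ m ∈ tw e π M, g *ᵥ (lm (f : A →+* B) ∘ m) ∈ tw e π' M' := fun m hm => by
  obtain ⟨h0, h1, h2⟩ := (mem_tw e).1 hm
  have k0 := h _ h0
  have k1 := h _ h1
  have k2 := h _ h2
  rw [eqv_co hg] at k0
  rw [lm_vsmul, mulVec_smul, eqv_pi hg, lm_j1] at k1
  rw [lm_vsmul, mulVec_smul, eqv_pi hg, lm_j2] at k2
  exact (mem_tw e).2 ⟨k0, k1, k2⟩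

/-- An equivariant morphism of the twists is a morphism of lattices. -/
theorem tw_unmap (hg : g * π.map (lm (f : A →+* B)) = π' * g) (hp : π * π = π)
    (hp' : π' * π' = π') (hM : Stab (Rg E A) M) (hM' : Stab (Rg E B) M')
    (hπ : ∀ m ∈ M, π *ᵥ m ∈ M)
    (h : ∀ m ∈ tw e π M, g *ᵥ (lm (f : A →+* B) ∘ m) ∈ tw e π' M') :
    ∀ m ∈ M, g *ᵥ (lm (f : A →+* B) ∘ m) ∈ M' := fun m hm => by
  have p0 : π *ᵥ π *ᵥ m = π *ᵥ m := by rw [mulVec_mulVec, hp]
  have p1 : (1 - π) *ᵥ π *ᵥ m = 0 := by rw [sub_mulVec, one_mulVec, p0, sub_self]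
  have p2 : π *ᵥ (1 - π) *ᵥ m = 0 := by
    rw [sub_mulVec, one_mulVec, mulVec_sub, p0, sub_self]
  have p3 : (1 - π) *ᵥ m ∈ M := by
    rw [sub_mulVec, one_mulVec]
    exact M.sub_mem hm (hπ m hm)
  have q0 : ∀ v : Fin N → Ls B, π' *ᵥ π' *ᵥ v = π' *ᵥ v := fun v => by rw [mulVec_mulVec, hp']
  have a0 : (1 - π) *ᵥ m ∈ tw e π M := (mem_tw e).2 ⟨by
    rw [sub_mulVec 1 π ((1 - π) *ᵥ m), one_mulVec, p2, sub_zero]; exact p3,
    by rw [p2, smul_zero]; exact M.zero_mem, by rw [p2, smul_zero]; exact M.zero_mem⟩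
  have a1 : ∀ w : Ls A, j1 e A * w ∈ Rg E A → j2 e A * w ∈ Rg E A → w • π *ᵥ m ∈ tw e π M :=
    fun w h1 h2 => (mem_tw e).2 ⟨by rw [mulVec_smul, p1, smul_zero]; exact M.zero_mem,
      by rw [mulVec_smul, p0, smul_smul]; exact hM _ h1 _ (hπ m hm),
      by rw [mulVec_smul, p0, smul_smul]; exact hM _ h2 _ (hπ m hm)⟩
  have b0 := ((mem_tw e).1 (h _ a0)).1
  have b1 := ((mem_tw e).1 (h _ (a1 _ (j11_mem e) (mul_comm (j1 e A) _ ▸ j12_mem e)))).2.1
  have b2 := ((mem_tw e).1 (h _ (a1 _ (j12_mem e) (j22_mem e)))).2.2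
  rw [lm_vsmul, mulVec_smul, eqv_pi hg, lm_j1, mulVec_smul, q0, smul_smul] at b1
  rw [lm_vsmul, mulVec_smul, eqv_pi hg, lm_j2, mulVec_smul, q0, smul_smul] at b2
  rw [eqv_co hg] at b0
  generalize g *ᵥ (lm (f : A →+* B) ∘ m) = v at b0 b1 b2 ⊢
  obtain ⟨p, hp1, q, hq, e1⟩ := j_bez (A := B) e
  have b3 := M'.add_mem (hM' _ hp1 _ b1) (hM' _ hq _ b2)
  rw [smul_smul, smul_smul, ← add_smul, e1, one_smul] at b3
  rw [sub_mulVec, one_mulVec, sub_mulVec, one_mulVec, mulVec_sub, q0, sub_self, sub_zero] at b0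
  have b4 := M'.add_mem b0 b3
  rwa [sub_add_cancel] at b4

end

end Vale.Agent.P286EHM
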